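import Mathlib
import Vale.Agent.Lib.P334.Cover

/-! # P334: metric k-median on instances of bounded aspect ratio -/

namespace Vale.Agent.Results.P334.BoundedAspect

open Vale.Agent.P334

/-- `O` is a feasible solution: a set of at least one and at most `k` facilities -/
def Feasible {X : Type} (F : Finset X) (k : ℕ) (O : Finset X) : Prop :=
  O ⊆ F ∧ 1 ≤ O.card ∧ O.card ≤ k

/-- (0) The greedy algorithm can be run on every instance, and its result is feasible. -/
def GreedyRuns : Prop :=
  ∀ (X : Type) [MetricSpace X] (J F : Finset X) (k : ℕ), F.Nonempty → 1 ≤ k →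
    (∃ S, Greedy J F k S) ∧ ∀ S, Greedy J F k S → Feasible F k S

/-- (1) On every instance the greedy algorithm costs at most `1 - 1/e` times the cost of any
feasible solution plus `1/e` times the sum of the distances `M j` of the clients `j` to their
remotest facilities (or upper bounds of them). -/
def GreedyGeneral : Prop :=
  ∀ (X : Type) [MetricSpace X] (J F : Finset X) (M : X → ℝ),
    (∀ j ∈ J, ∀ i ∈ F, dist j i ≤ M j) → ∀ (k : ℕ) (S O : Finset X), Greedy J F k S →
    Feasible F k O →
    cost J S ≤ (1 - Real.exp (-1)) * cost J O + Real.exp (-1) * ∑ j ∈ J, M j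

/-- (2) If all distances between clients and facilities lie between `a` and `D a`, the greedy
algorithm costs at most `1 + (D - 1) / e` times the cost of any feasible solution. -/
def GreedyBoundedAspect : Prop :=
  ∀ (X : Type) [MetricSpace X] (J F : Finset X) (a D : ℝ), 1 ≤ D →
    (∀ j ∈ J, ∀ i ∈ F, a ≤ dist j i ∧ dist j i ≤ D * a) → ∀ (k : ℕ) (S O : Finset X),
    Greedy J F k S → Feasible F k O → cost J S ≤ (1 + (D - 1) / Real.exp 1) * cost J O

open Classical in
/-- (3) For `1 ≤ D ≤ 3` every set system is a k-median instance of aspect ratio `D`: the distance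
of an element to a set is `1` if it belongs to it and `D` otherwise, and a family `S` of sets costs
the number of elements plus `D - 1` times the number of elements not covered by `S`. -/
def CoverageInstances : Prop :=
  ∀ (E I : Type) [Fintype E] (r : E → I → Prop) (D : ℝ), 1 ≤ D → D ≤ 3 →
    ∃ _ : MetricSpace (E ⊕ I),
      (∀ (e : E) (i : I), dist (Sum.inl e : E ⊕ I) (Sum.inr i) = if r e i then 1 else D) ∧
      ∀ S : Finset I, S.Nonempty →
        cost (Finset.univ.map (Function.Embedding.inl : E ↪ E ⊕ I))
          (S.map (Function.Embedding.inr : I ↪ E ⊕ I)) =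
        Fintype.card E + (D - 1) * (Finset.univ.filter fun e : E => ∀ i ∈ S, ¬ r e i).card

/-- **Main result.** -/
theorem result : GreedyRuns ∧ GreedyGeneral ∧ GreedyBoundedAspect ∧ CoverageInstances := by
  refine ⟨?_, ?_, ?_, ?_⟩
  · intro X _ J F k hF hk
    exact ⟨Greedy.exists hF hk, fun S hS => hS.feasible⟩
  · intro X _ J F M hM k S O hS hO
    exact greedy_general hM hS (Finset.card_pos.1 hO.2.1) hO.1 hO.2.2
  · intro X _ J F a D hD hdist k S O hS hO
    exact greedy_ratio hD hdist hS (Finset.card_pos.1 hO.2.1) hO.1 hO.2.2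
  · intro E I _ r D h1 h3
    exact ⟨coverSpace r D h1 h3, fun e i => rfl, fun S hS => cost_cover r D h1 h3 S hS⟩

end Vale.Agent.Results.P334.BoundedAspect
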